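import Vale.Agent.P174.Bdl.D
import Vale.Agent.P174.LO.Local

namespace Vale.Agent.Results.P174.LeftOrderableSingle

open Vale.Agent.P174

universe u

/-- `G` has a linear order which is invariant under left multiplication. -/
def LeftOrderable (G : Type u) [Group G] : Prop :=
  ∃ r : LinearOrder G, ∀ a b c : G, r.lt b c → r.lt (a * b) (a * c)

theorem aux_rank {G : Type u} [Group G] {n : ℕ} {w : Words G n} {g : G}
    (h : IsConj w (Monoid.Coprod.inl g)) : ¬ FullRank ℚ (fun _ : Fin 1 => w) := by
  intro hr
  have h1 : expSum G n w = 1 := by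
    have h2 : IsConj (expSum G n w) (expSum G n (Monoid.Coprod.inl g)) :=
      (expSum G n).map_isConj h
    have h3 : expSum G n (Monoid.Coprod.inl g) = 1 := by simp [expSum]
    rw [h3] at h2
    exact isConj_one_right.1 h2.symm
  have h4 : expMatrix (fun _ : Fin 1 => w) = 0 := by
    ext i j
    simp [expMatrix, h1]
  rw [FullRank, h4] at hr
  simp at hr

theorem aux_solvable {G : Type u} [Group G] {n : ℕ} {w : Words G n}
    (h : ∀ g : G, Monoid.Coprod.inl g ∈ Subgroup.normalClosure {w} → g = 1) :
    SolvableOver (fun _ : Fin 1 => w) := by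
  refine ⟨Words G n ⧸ Subgroup.normalClosure {w}, inferInstance,
    (QuotientGroup.mk' (Subgroup.normalClosure {w})).comp Monoid.Coprod.inl,
    fun j => QuotientGroup.mk' (Subgroup.normalClosure {w}) (Monoid.Coprod.inr (FreeGroup.of j)),
    ?_, ?_⟩
  · rw [injective_iff_map_eq_one]
    intro g hg
    exact h g ((QuotientGroup.eq_one_iff _).1 hg)
  · intro _
    have h1 : Monoid.Coprod.lift
        ((QuotientGroup.mk' (Subgroup.normalClosure {w})).comp Monoid.Coprod.inl)
        (FreeGroup.lift fun j => QuotientGroup.mk' (Subgroup.normalClosure {w})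
          (Monoid.Coprod.inr (FreeGroup.of j))) =
        QuotientGroup.mk' (Subgroup.normalClosure {w}) := by
      apply Monoid.Coprod.hom_ext
      · ext g; simp
      · ext j; simp
    rw [h1]
    exact (QuotientGroup.eq_one_iff _).2 (Subgroup.subset_normalClosure rfl)

/-- The Kervaire-Laudenbach conjecture, for all equations in any number of unknowns over
left-orderable groups. -/
theorem result (G : Type u) [Group G] (hG : LeftOrderable G) (n : ℕ) (w : Words G n) :
    (SolvableOver (fun _ : Fin 1 => w) ↔
      ∀ g : G, IsConj w (Monoid.Coprod.inl g) → g = 1) ∧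
    (FullRank ℚ (fun _ : Fin 1 => w) → SolvableOver (fun _ : Fin 1 => w)) := by
  have key : (∀ g : G, IsConj w (Monoid.Coprod.inl g) → g = 1) →
      SolvableOver (fun _ : Fin 1 => w) := by
    intro hw
    apply aux_solvable
    intro g hg
    refine LO.free_word hG (W := w) ?_ hg
    rintro u g' rfl
    apply hw
    rw [isConj_comm, isConj_iff]
    exact ⟨u, rfl⟩
  refine ⟨⟨?_, key⟩, fun hr => key fun g hg => absurd hr (aux_rank hg)⟩
  rintro ⟨H, _, ι, h, hι, hw⟩ g hg
  have h1 := (Monoid.Coprod.lift ι (FreeGroup.lift h)).map_isConj hg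
  rw [hw 0, Monoid.Coprod.lift_apply_inl] at h1
  exact hι (by rw [isConj_one_right.1 h1, map_one])

end Vale.Agent.Results.P174.LeftOrderableSingle
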