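import Vale.Agent.P174.MathlibUsed
import Vale.Agent.P174.Bdl.D
import Vale.Agent.P174.H753.Kill

namespace Vale.Agent.Results.P174.LocalAndLeftOrdered

open Vale.Agent.P174 Vale.Agent.P174.H753

universe u v

/-- Systems: localization, extensions by locally indicable groups, Fox rank along a homomorphism;
single equations: left-orderable coefficient groups, arbitrary coefficient groups with a
left-orderable image, and the left-orderable images of a killed element. -/
theorem result :
    (∀ (k : Type) [Field k] (G : Type u) [Group G], LocalForm k G) ∧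
    (∀ (k : Type) [Field k] (G : Type u) [Group G] (Q : Type v) [Group Q] (m n : ℕ)
      (w : Fin m → Words G n) (φ : Words G n →* Q), (∀ i, φ (w i) = 1) → RelativeForm k w φ) ∧
    (∀ (G : Type u) [Group G], LeftOrderable G → ∀ (n : ℕ) (w : Words G n),
      (SolvableOver (fun _ : Fin 1 => w) ↔
        ∀ g : G, IsConj w (Monoid.Coprod.inl g) → g = 1) ∧
      (FullRank ℚ (fun _ : Fin 1 => w) → SolvableOver (fun _ : Fin 1 => w))) ∧
    (∀ (G : Type u) [Group G] (Q : Type v) [Group Q] (φ : G →* Q), LeftOrderable Q →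
      ∀ (n ℓ : ℕ) [NeZero ℓ] (x : ZMod ℓ → Fin n × Bool) (c : ZMod ℓ → G),
        ReducedAlong φ x c → AperiodicAlong φ x c →
        SolvableOver (fun _ : Fin 1 => cyclicWord x c)) ∧
    (∀ (G : Type u) [Group G] (n : ℕ) (w : Words G n), FullRank ℚ (fun _ : Fin 1 => w) →
      ∀ g : G, Monoid.Coprod.inl g ∈ Subgroup.normalClosure {w} →
      ∀ (H : Type u) [Group H], LeftOrderable H → ∀ ρ : G →* H, ρ g = 1) :=
  ⟨fun k _ G _ => localForm k G,
    fun k _ _ _ _ _ _ _ w φ hφ => relativeForm k w φ hφ,
    fun G _ hG n w => single G hG n w,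
    fun _ _ _ _ φ hQ _ _ _ x c h1 h2 => relative hQ φ x c h1 h2,
    fun _ _ _ _ hw _ hg H _ hH ρ => kill_LO hw hg H hH ρ⟩

end Vale.Agent.Results.P174.LocalAndLeftOrdered
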